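import Vale.Agent.P271.Main.Hub
import Vale.Agent.P271.H311.Glue

/-!
# P271: Fujita's freeness conjecture (in the model of cones)
-/

namespace Vale.Agent.Results.P271.FujitaCone

open Vale.Agent.P271

/-- **Fujita's freeness conjecture.** For every smooth projective variety `X` of dimension `n ≥ 1`
over `ℂ`, every ample line bundle `L` and every `m ≥ n + 1`, the line bundle `K_X + mL` is globally
generated. -/
theorem result : Cone.FujitaFreeness := Br.hub_imp Main.hubFujita

end Vale.Agent.Results.P271.FujitaCone
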