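import Vale.Agent.P271.Sch.FujFinal
import Vale.Agent.P271.Main.Hub

namespace Vale.Agent.Results.P271.FujitaFreeness

open Vale.Agent.P271.Fuj

/-- **Fujita's freeness conjecture.** Let `X` be a smooth projective variety of dimension `n` over
`ℂ` and let `L` be an ample divisor on `X`. Then `X` has a canonical divisor, and for every
canonical divisor `κ` and every `m ≥ n + 1` the line bundle `𝒪(κ + m • L)`, that is `K_X + m L`,
is globally generated. -/
theorem result (n : ℕ) (V : Var n) (L : V.Div) (hL : Var.IsAmple L) :
    (∃ κ : V.Div, Var.IsCanonical κ) ∧ ∀ κ : V.Div, Var.IsCanonical κ → ∀ m : ℕ, n + 1 ≤ m →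
      Var.IsGloballyGenerated (κ + m • L) :=
  result_of_hub Vale.Agent.P271.Main.hubFujita n V L hL

end Vale.Agent.Results.P271.FujitaFreeness
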